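import Vale.Agent.P092.H051.Corner
import Vale.Agent.P092.H051.MFinal

/-!
P092: let `Γ` be any ICC group.

(1)-(4): let `Λ` be an ICC group, `p ∈ L(Λ)` a projection and `θ : L(Γ) → pL(Λ)p` an isomorphism
(so `L(Γ)^t ≅ L(Λ)`, `t = 1/τ(p) ≥ 1`). Then `p = 1` and `θ` is canonical, or the random walk
averages of the fourth power sums `∑_s |τ(θ(u_g) v_s*)|⁴` tend to `0`; if `Γ` has property (T) they
decay exponentially, at a rate which depends only on a Kazhdan pair of `Γ` (not on `Λ`, `p`, `θ`).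

(5)-(7): let `Λ` be any group, `p ∈ M_m(L(Λ))` a projection with `(Tr ⊗ τ)(p) > 1` and
`θ : L(Γ) → pM_m(L(Λ))p` an isomorphism (so `L(Γ)^t ≅ L(Λ)`, `t = 1/(Tr ⊗ τ)(p) < 1`). Then the
same decay holds without any exception.

This covers every lattice and every `t > 0` of Q1.
-/

open Vale.Agent.P092.H160 Vale.Agent.P092.H160.St Vale.Agent.P092.H885 Vale.Agent.P092.H051
open Filter Topology

theorem Vale.Agent.Results.P092.PropertyTGap.result (Γ : Type) [Group Γ]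
    (hΓ : ∀ g : Γ, g ≠ 1 → Set.Infinite {y : Γ | ∃ h, y = h * g * h⁻¹}) :
    (∀ (Q : Finset Γ) (ε : ℝ), IsKazhdanPair Γ Q ε →
      ∀ (Λ : Type) [Group Λ] (p : Op Λ) (θ : CornerIso Γ Λ p),
      (p ≠ u 1 → ∀ s : Λ, s ≠ 1 → Set.Infinite {y : Λ | ∃ h, y = h * s * h⁻¹}) →
        CornerCanonical θ ∨
        ((∃ s ∈ Q, fourth (θ.toFun (u s)) ≤ 1 - ε ^ 2 / 2) ∧
          ∀ (a b : Γ) (k : ℕ), (avg Q)^[k] (fun g => fourth (θ.toFun (u (a * g * b)))) 1 ≤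
            (1 - ε ^ 2 / (4 * Q.card)) ^ k)) ∧
    ((∃ (Q₀ : Finset Γ) (ε : ℝ), IsKazhdanPair Γ Q₀ ε) →
      ∀ Q : Finset Γ, Subgroup.closure (Q : Set Γ) = ⊤ → ∃ δ : ℝ, 0 < δ ∧ δ < 1 ∧
      ∀ (Λ : Type) [Group Λ] (p : Op Λ) (θ : CornerIso Γ Λ p),
      (p ≠ u 1 → ∀ s : Λ, s ≠ 1 → Set.Infinite {y : Λ | ∃ h, y = h * s * h⁻¹}) →
        CornerCanonical θ ∨
        ((∃ s ∈ Q, fourth (θ.toFun (u s)) ≤ 1 - δ) ∧
          ∀ (a b : Γ) (k : ℕ),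
            (avg Q)^[k] (fun g => fourth (θ.toFun (u (a * g * b)))) 1 ≤ (1 - δ) ^ k)) ∧
    (∀ Q : Finset Γ, Q.Nonempty → Subgroup.closure (Q : Set Γ) = ⊤ →
      ∀ (Λ : Type) [Group Λ] (p : Op Λ) (θ : CornerIso Γ Λ p),
      (p ≠ u 1 → ∀ s : Λ, s ≠ 1 → Set.Infinite {y : Λ | ∃ h, y = h * s * h⁻¹}) →
        CornerCanonical θ ∨ ∀ a b : Γ,
          Tendsto (fun k : ℕ => (avg Q)^[k] (fun g => fourth (θ.toFun (u (a * g * b)))) 1)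
            atTop (𝓝 0)) ∧
    (∀ (Λ : Type) [Group Λ] (p : Op Λ) (θ : CornerIso Γ Λ p), CornerCanonical θ →
      ∃ c : ℝ, 0 < c ∧ ∀ g : Γ, c ≤ fourth (θ.toFun (u g))) ∧
    (∀ (Q : Finset Γ) (ε : ℝ), IsKazhdanPair Γ Q ε →
      ∀ (Λ : Type) [Group Λ] (m : ℕ) (p : Op (Fin m × Λ)) (θ : MCornerIso Γ Λ m p),
      1 < (trM p).re →
        (∃ s ∈ Q, fourthM (θ.toFun (u s)) ≤ (1 - ε ^ 2 / 2) * fourthM p) ∧
        ∀ (a b : Γ) (k : ℕ), (avg Q)^[k] (fun g => fourthM (θ.toFun (u (a * g * b)))) 1 ≤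
          (1 - ε ^ 2 / (4 * Q.card)) ^ k * fourthM p) ∧
    ((∃ (Q₀ : Finset Γ) (ε : ℝ), IsKazhdanPair Γ Q₀ ε) →
      ∀ Q : Finset Γ, Q.Nonempty → Subgroup.closure (Q : Set Γ) = ⊤ → ∃ δ : ℝ, 0 < δ ∧ δ < 1 ∧
      ∀ (Λ : Type) [Group Λ] (m : ℕ) (p : Op (Fin m × Λ)) (θ : MCornerIso Γ Λ m p),
      1 < (trM p).re →
        (∃ s ∈ Q, fourthM (θ.toFun (u s)) ≤ (1 - δ) * fourthM p) ∧
        ∀ (a b : Γ) (k : ℕ), (avg Q)^[k] (fun g => fourthM (θ.toFun (u (a * g * b)))) 1 ≤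
          (1 - δ) ^ k * fourthM p) ∧
    (∀ Q : Finset Γ, Q.Nonempty → Subgroup.closure (Q : Set Γ) = ⊤ →
      ∀ (Λ : Type) [Group Λ] (m : ℕ) (p : Op (Fin m × Λ)) (θ : MCornerIso Γ Λ m p),
      1 < (trM p).re → ∀ a b : Γ,
        Tendsto (fun k : ℕ => (avg Q)^[k] (fun g => fourthM (θ.toFun (u (a * g * b)))) 1)
          atTop (𝓝 0)) := by
  refine ⟨fun Q ε hK Λ _ p θ hΛ => ?_, ?_, fun Q hQ hgen Λ _ p θ hΛ => ?_,
    fun Λ _ p θ h => corner_lower hΓ θ h, fun Q ε hK Λ _ m p θ hd => mcorner_kazhdan hΓ θ hd hK,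
    ?_, fun Q hQ hgen Λ _ m p θ hd a b => mcorner_soft hΓ θ hd hQ hgen a b⟩
  · by_cases hc : CornerCanonical θ
    · exact Or.inl hc
    · exact Or.inr (corner_kazhdan hΓ hΛ θ hc hK)
  · rintro ⟨Q₀, ε, hK⟩ Q hgen
    obtain ⟨δ, h0, h1, h⟩ := corner_gen hΓ hK hgen
    refine ⟨δ, h0, h1, fun Λ _ p θ hΛ => ?_⟩
    by_cases hc : CornerCanonical θ
    · exact Or.inl hc
    · exact Or.inr (h θ hΛ hc)
  · by_cases hc : CornerCanonical θ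
    · exact Or.inl hc
    · exact Or.inr (corner_soft' hΓ hΛ θ hc hQ hgen)
  · rintro ⟨Q₀, ε, hK⟩ Q hQ hgen
    obtain ⟨δ, h0, h1, h⟩ := mcorner_gen hΓ hK hQ hgen
    exact ⟨δ, h0, h1, fun Λ _ m p θ hd => h θ hd⟩
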