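import Vale.Agent.P092.H605.CanB
import Vale.Agent.P092.H605.CanD
import Vale.Agent.P092.H605.DichF

/-!
P092, all amplifications at once. For EVERY ICC group `Γ`, every ICC group `Λ`, every projection
`p ∈ M_n(L(Λ))` and every isomorphism `θ : L(Γ) → p M_n(L(Λ)) p`: either `(Tr ⊗ τ)(p) = 1` and `θ`
is canonical, or the random walk averages of the fourth power sums
`F(g) = ∑_ij ∑_s |τ(θ(u_g)_ij v_s*)|⁴` tend to `0`; if `Γ` has property (T) they decay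
exponentially, at a rate which depends only on a Kazhdan pair of `Γ`, not on `Λ`, `n`, `p`, `θ`.
-/

open Vale.Agent.P092.H160 Vale.Agent.P092.H160.St Vale.Agent.P092.H885
open Vale.Agent.P092.H605 Vale.Agent.P092.H605.Pb
open Filter Topology

theorem Vale.Agent.Results.P092.StableDichotomy.result (Γ : Type) [Group Γ]
    (hΓ : ∀ g : Γ, g ≠ 1 → Set.Infinite {y : Γ | ∃ h, y = h * g * h⁻¹}) :
    (∀ (Q : Finset Γ) (ε : ℝ), IsKazhdanPair Γ Q ε →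
      ∀ (Λ : Type) [Group Λ],
      (∀ s : Λ, s ≠ 1 → Set.Infinite {y : Λ | ∃ h, y = h * s * h⁻¹}) →
      ∀ (n : ℕ) (p : Op (Fin n × Λ)), IsProj p → ∀ θ : CornerIso Γ Λ n p, CanonicalM θ ∨
        (∃ s ∈ Q, fourM (θ.toFun (u s)) ≤ (1 - ε ^ 2 / 2) * fourM p) ∧
        ∀ (a b : Γ) (k : ℕ), (avg Q)^[k] (fun g => fourM (θ.toFun (u (a * g * b)))) 1 ≤
            (1 - ε ^ 2 / (4 * Q.card)) ^ k * fourM p) ∧
    ((∃ (Q₀ : Finset Γ) (ε : ℝ), IsKazhdanPair Γ Q₀ ε) →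
      ∀ Q : Finset Γ, Subgroup.closure (Q : Set Γ) = ⊤ → ∃ δ : ℝ, 0 < δ ∧ δ < 1 ∧
      ∀ (Λ : Type) [Group Λ],
      (∀ s : Λ, s ≠ 1 → Set.Infinite {y : Λ | ∃ h, y = h * s * h⁻¹}) →
      ∀ (n : ℕ) (p : Op (Fin n × Λ)), IsProj p → ∀ θ : CornerIso Γ Λ n p, CanonicalM θ ∨
        (∃ s ∈ Q, fourM (θ.toFun (u s)) ≤ (1 - δ) * fourM p) ∧
        ∀ (a b : Γ) (k : ℕ), (avg Q)^[k] (fun g => fourM (θ.toFun (u (a * g * b)))) 1 ≤
            (1 - δ) ^ k * fourM p) ∧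
    (∀ (Λ : Type) [Group Λ],
      (∀ s : Λ, s ≠ 1 → Set.Infinite {y : Λ | ∃ h, y = h * s * h⁻¹}) →
      ∀ (n : ℕ) (p : Op (Fin n × Λ)), IsProj p → ∀ θ : CornerIso Γ Λ n p,
        0 < fourM p ∧
        (CanonicalM θ → trM p = 1 ∧ ∃ c : ℝ, 0 < c ∧ ∀ g : Γ, c ≤ fourM (θ.toFun (u g))) ∧
        (CanonicalM θ ∨ ∀ c : ℝ, 0 < c → ∃ g : Γ, fourM (θ.toFun (u g)) < c) ∧
        ∀ Q : Finset Γ, Q.Nonempty → Subgroup.closure (Q : Set Γ) = ⊤ → CanonicalM θ ∨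
          ∀ a b : Γ, Tendsto (fun k : ℕ => (avg Q)^[k]
            (fun g => fourM (θ.toFun (u (a * g * b)))) 1) atTop (𝓝 0)) := by
  refine ⟨?_, ?_, ?_⟩
  · intro Q ε hK Λ _ hΛ n p hp θ
    obtain ⟨hU, ht, hp0, hone, hpos, hf⟩ := data θ hΓ hp
    rcases dich hΓ hΛ (isProj_iff.mp hp) θ.old (fun θ' h => hdec_kazhdan hΓ hK θ' h) with h | horth
    · exact Or.inl (canM_of_stCan θ h)
    · obtain ⟨h2, h3⟩ := corner_kazhdan hU horth hK
      simp only [hone, ← fourM_eq'] at h2 h3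
      exact Or.inr ⟨h2, h3⟩
  · rintro ⟨Q₀, ε, hK⟩ Q hgen
    obtain ⟨δ, h0, hd1, h⟩ := corner_gen hK hgen
    refine ⟨δ, h0, hd1, fun Λ _ hΛ n p hp θ => ?_⟩
    obtain ⟨hU, ht, hp0, hone, hpos, hf⟩ := data θ hΓ hp
    rcases dich hΓ hΛ (isProj_iff.mp hp) θ.old (fun θ' h => hdec_kazhdan hΓ hK θ' h) with h' | horth
    · exact Or.inl (canM_of_stCan θ h')
    · obtain ⟨h2, h3⟩ := h hU hp0 horth
      simp only [hone, ← fourM_eq'] at h2 h3
      exact Or.inr ⟨h2, h3⟩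
  · intro Λ _ hΛ n p hp θ
    obtain ⟨hU, ht, hp0, hone, hpos, hf⟩ := data θ hΓ hp
    refine ⟨hpos, Can.lower hp θ, ?_, fun Q hQ hgen => ?_⟩
    · rcases dichI hΓ hΛ (isProj_iff.mp hp) θ.old with h | h
      · exact Or.inl (canM_of_stCan θ h)
      · refine Or.inr fun c hc => ?_
        obtain ⟨g, hg⟩ := h c hc
        exact ⟨g, by rw [← hf]; exact hg⟩
    · rcases dich hΓ hΛ (isProj_iff.mp hp) θ.old (fun θ' h => ⟨Q, hQ, by
        have h1 := icc_soft hΓ θ' h hQ hgen 1 1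
        simp only [one_mul, mul_one] at h1
        exact h1⟩) with h | horth
      · exact Or.inl (canM_of_stCan θ h)
      · refine Or.inr fun a b => ?_
        have h2 := corner_soft hU horth hQ hgen a b
        simp only [hf] at h2
        exact h2
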